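import Vale.Agent.Lib.P229.Invariant

namespace Vale.Agent.Results.P229.TranslationInvariant

open scoped ContDiff
open Vale.Agent.Lib.P229

/-- Every smooth Riemannian metric `g = E(x) dx² + 2 F(x) dx dy + G(x) dy²` on `I × ℝ`
(`I ⊆ ℝ` open) whose coefficients do not depend on `y` is locally `C^∞`-realizable in
Euclidean `ℝ³` at every point, with no assumption on its Gaussian curvature. -/
theorem result (I : Set ℝ) (hI : IsOpen I) (E F G : ℝ → ℝ)
    (hE : ContDiffOn ℝ ∞ E I) (hF : ContDiffOn ℝ ∞ F I) (hG : ContDiffOn ℝ ∞ G I)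
    (hpos : ∀ x ∈ I, 0 < E x ∧ 0 < E x * G x - F x ^ 2) :
    ∀ p : ℝ × ℝ, p.1 ∈ I →
      LocallySmoothlyRealizable (fun q => E q.1) (fun q => F q.1) (fun q => G q.1) p :=
  fun p hp => realizable_of_translation_invariant I hI E F G hE hF hG hpos p hp

end Vale.Agent.Results.P229.TranslationInvariant
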